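import Mathlib

namespace Vale.Agent.H23.Tot

open Filter Topology

/-- `𝒱 ∩ [0, x]` -/
def Vset (x : ℝ) : Set ℕ := {v : ℕ | (∃ n : ℕ, 0 < n ∧ Nat.totient n = v) ∧ (v : ℝ) ≤ x}

/-- number of totient values up to `x` -/
noncomputable def V (x : ℝ) : ℕ := (Vset x).ncard

lemma Vset_sub (x : ℝ) : Vset x ⊆ (Finset.Icc 1 ⌊x⌋₊ : Set ℕ) := by
  rintro v ⟨⟨n, hn, rfl⟩, hv⟩
  have h1 : 0 < Nat.totient n := Nat.totient_pos.mpr hn
  simp only [Finset.coe_Icc, Set.mem_Icc]
  exact ⟨h1, Nat.le_floor hv⟩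

lemma Vset_finite (x : ℝ) : (Vset x).Finite := (Finset.finite_toSet _).subset (Vset_sub x)

lemma V_mono {x y : ℝ} (h : x ≤ y) : V x ≤ V y :=
  Set.ncard_le_ncard (fun _ hv => ⟨hv.1, hv.2.trans h⟩) (Vset_finite y)

lemma V_le {x : ℝ} (hx : 0 ≤ x) : (V x : ℝ) ≤ x := by
  have h1 : V x ≤ ⌊x⌋₊ := by
    calc V x ≤ (Finset.Icc 1 ⌊x⌋₊ : Set ℕ).ncard := Set.ncard_le_ncard (Vset_sub x) (Finset.finite_toSet _)
      _ = ⌊x⌋₊ := by rw [Set.ncard_coe_finset]; simp
  calc (V x : ℝ) ≤ (⌊x⌋₊ : ℝ) := by exact_mod_cast h1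
    _ ≤ x := Nat.floor_le hx

lemma V_pos {x : ℝ} (hx : 1 ≤ x) : 0 < V x := by
  apply (Set.ncard_pos (Vset_finite x)).mpr
  exact ⟨1, ⟨1, one_pos, by simp⟩, by simpa using hx⟩

lemma V_ge {x : ℝ} (hx : 1 ≤ x) :
    (x - 1) * Real.log 2 - Real.log (x + 2) ≤ V x * Real.log x := by
  have h1 : Nat.primeCounting ⌊x⌋₊ ≤ V x := by
    rw [Nat.primeCounting, Nat.primeCounting', Nat.count_eq_card_filter_range]
    rw [V]
    rw [← Set.ncard_coe_finset]
    have hinj : Set.InjOn (fun p : ℕ => p - 1)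
        (((Finset.range (⌊x⌋₊ + 1)).filter Nat.Prime : Finset ℕ) : Set ℕ) := by
      intro p hp q hq h
      simp only [Finset.coe_filter, Finset.mem_range, Set.mem_ofPred_eq] at hp hq
      have := hp.2.one_lt
      have := hq.2.one_lt
      simp only at h
      omega
    rw [← hinj.ncard_image]
    apply Set.ncard_le_ncard _ (Vset_finite x)
    rintro _ ⟨p, hp, rfl⟩
    simp only [Finset.coe_filter, Finset.mem_range, Set.mem_ofPred_eq] at hp
    refine ⟨⟨p, hp.2.pos, Nat.totient_prime hp.2⟩, ?_⟩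
    have h2 : (p - 1 : ℕ) ≤ ⌊x⌋₊ := by omega
    calc ((p - 1 : ℕ) : ℝ) ≤ (⌊x⌋₊ : ℝ) := by exact_mod_cast h2
      _ ≤ x := Nat.floor_le (by linarith)
  have h2 := Chebyshev.psi_ge' (x := x) (by linarith)
  have h3 := Chebyshev.psi_le_primeCounting_mul_log' x
  have h4 : (Nat.primeCounting ⌊x⌋₊ : ℝ) * Real.log x ≤ V x * Real.log x :=
    mul_le_mul_of_nonneg_right (by exact_mod_cast h1) (Real.log_nonneg hx)
  linarith

/-- `V(c x) ≥ r V(x)` cannot hold for all large `x` if `r > c` -/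
lemma upper {c r : ℝ} (hc : 1 < c) (hr : c < r) :
    ¬ ∀ᶠ x in atTop, r ≤ (V (c * x) : ℝ) / V x := by
  intro h
  obtain ⟨X, hX⟩ := eventually_atTop.mp h
  set Y : ℝ := max X 1 with hY
  have hY1 : 1 ≤ Y := le_max_right _ _
  have hYX : X ≤ Y := le_max_left _ _
  have hpow : ∀ k : ℕ, Y ≤ c ^ k * Y := fun k => by
    have := one_le_pow₀ hc.le (n := k); nlinarith
  have key : ∀ k : ℕ, r ^ k ≤ V (c ^ k * Y) := by
    intro k
    induction k with
    | zero => simpa using (by exact_mod_cast V_pos hY1 : (1 : ℝ) ≤ V Y)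
    | succ k ih =>
      have h1 := hX (c ^ k * Y) (hYX.trans (hpow k))
      have h2 : (0 : ℝ) < V (c ^ k * Y) := by exact_mod_cast V_pos (hY1.trans (hpow k))
      rw [le_div_iff₀ h2] at h1
      have h3 : c ^ (k + 1) * Y = c * (c ^ k * Y) := by ring
      rw [h3, pow_succ]
      nlinarith
  have h2 : ∀ k : ℕ, (r / c) ^ k ≤ Y := by
    intro k
    have h3 : r ^ k ≤ c ^ k * Y := (key k).trans (V_le (by have := hpow k; linarith))
    rw [div_pow, div_le_iff₀ (by positivity)]
    linarith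
  have h3 : 1 < r / c := by rw [one_lt_div (by linarith)]; exact hr
  obtain ⟨k, hk⟩ := pow_unbounded_of_one_lt Y h3
  linarith [h2 k]

/-- `V(c x) ≤ r V(x)` cannot hold for all large `x` if `r < c` -/
lemma lower {c r : ℝ} (hc : 1 < c) (hr : r < c) :
    ¬ ∀ᶠ x in atTop, (V (c * x) : ℝ) / V x ≤ r := by
  intro h
  wlog hr1 : 1 ≤ r generalizing r with H
  · exact H (r := 1) hc (h.mono fun x hx => hx.trans (by linarith)) le_rfl
  obtain ⟨X, hX⟩ := eventually_atTop.mp h
  set Y : ℝ := max X 2 with hY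
  have hY1 : 2 ≤ Y := le_max_right _ _
  have hYX : X ≤ Y := le_max_left _ _
  have hpow : ∀ k : ℕ, Y ≤ c ^ k * Y := fun k => by
    have := one_le_pow₀ hc.le (n := k); nlinarith
  have key : ∀ k : ℕ, (V (c ^ k * Y) : ℝ) ≤ r ^ k * V Y := by
    intro k
    induction k with
    | zero => simp
    | succ k ih =>
      have h1 := hX (c ^ k * Y) (hYX.trans (hpow k))
      have h2 : (0 : ℝ) < V (c ^ k * Y) := by
        exact_mod_cast V_pos (by linarith [hpow k])
      rw [div_le_iff₀ h2] at h1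
      have h3 : c ^ (k + 1) * Y = c * (c ^ k * Y) := by ring
      rw [h3, pow_succ]
      nlinarith
  have hq : 1 < c / r := by rw [one_lt_div (by linarith)]; exact hr
  have hY0 : (0 : ℝ) < Y := by linarith
  set A : ℝ := 3 + V Y * Real.log Y with hA
  set B : ℝ := V Y * Real.log c with hB
  have hlin : ∀ k : ℕ, (c / r) ^ k ≤ A + B * k := by
    intro k
    have hx2 : 2 ≤ c ^ k * Y := hY1.trans (hpow k)
    have h1 := V_ge (x := c ^ k * Y) (by linarith)
    have h2 : Real.log (c ^ k * Y + 2) ≤ (c ^ k * Y + 2) / 8 + 2 := by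
      have h3 : Real.log ((c ^ k * Y + 2) / 8) ≤ (c ^ k * Y + 2) / 8 - 1 :=
        Real.log_le_sub_one_of_pos (by positivity)
      rw [Real.log_div (by positivity) (by norm_num)] at h3
      have h4 : Real.log 8 = 3 * Real.log 2 := by
        rw [show (8 : ℝ) = 2 ^ 3 by norm_num, Real.log_pow]; norm_num
      have := Real.log_two_lt_d9
      linarith
    have h5 := Real.log_two_gt_d9
    have h6 : c ^ k * Y / 2 - 3 ≤ V (c ^ k * Y) * Real.log (c ^ k * Y) := by
      nlinarith
    have h7 : Real.log (c ^ k * Y) = k * Real.log c + Real.log Y := by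
      rw [Real.log_mul (by positivity) (by positivity), Real.log_pow]
    have h8 : 0 ≤ k * Real.log c + Real.log Y := by
      have := Real.log_nonneg hc.le
      have := Real.log_nonneg (by linarith : (1 : ℝ) ≤ Y)
      positivity
    have h9 : c ^ k * Y / 2 - 3 ≤ r ^ k * V Y * (k * Real.log c + Real.log Y) := by
      rw [h7] at h6
      exact h6.trans (mul_le_mul_of_nonneg_right (key k) h8)
    have hrk : 1 ≤ r ^ k := one_le_pow₀ hr1
    rw [div_pow, div_le_iff₀ (by positivity)]
    have h10 : c ^ k ≤ c ^ k * Y / 2 := by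
      have : 0 < c ^ k := by positivity
      nlinarith
    have h11 : r ^ k * V Y * (k * Real.log c + Real.log Y) + 3 ≤ (A + B * k) * r ^ k := by
      rw [hA, hB]; nlinarith
    linarith
  have ht0 : Tendsto (fun n : ℕ => A * ((n : ℝ) ^ 0 / (c / r) ^ n) + B * ((n : ℝ) ^ 1 / (c / r) ^ n))
      atTop (𝓝 (A * 0 + B * 0)) :=
    ((tendsto_pow_const_div_const_pow_of_one_lt 0 hq).const_mul A).add
      ((tendsto_pow_const_div_const_pow_of_one_lt 1 hq).const_mul B)
  rw [mul_zero, mul_zero, add_zero] at ht0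
  obtain ⟨k, hk⟩ := (ht0.eventually_lt_const (show (0 : ℝ) < 1 by norm_num)).exists
  have h1 := hlin k
  have h2 : 0 < (c / r) ^ k := by positivity
  have h3 : A * ((k : ℝ) ^ 0 / (c / r) ^ k) + B * ((k : ℝ) ^ 1 / (c / r) ^ k) =
      (A + B * k) / (c / r) ^ k := by
    rw [pow_zero, pow_one]; ring
  rw [h3, div_lt_one h2] at hk
  linarith

lemma lim_eq {c L : ℝ} (hc : 1 < c)
    (h : Tendsto (fun x => (V (c * x) : ℝ) / V x) atTop (𝓝 L)) : L = c := by
  rcases lt_trichotomy L c with h1 | h1 | h1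
  · exfalso
    obtain ⟨r, hr1, hr2⟩ := exists_between h1
    exact lower hc hr2 ((h.eventually_lt_const hr1).mono fun x hx => hx.le)
  · exact h1
  · exfalso
    obtain ⟨r, hr1, hr2⟩ := exists_between h1
    exact upper hc hr1 ((h.eventually_const_lt hr2).mono fun x hx => hx.le)

/-- `g` is good if `V(g x)/V(x) → g` -/
def Good (g : ℝ) : Prop := Tendsto (fun x => (V (g * x) : ℝ) / V x) atTop (𝓝 g)

lemma good_one : Good 1 := by
  unfold Good
  apply tendsto_const_nhds.congr'
  filter_upwards [eventually_ge_atTop 1] with x hx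
  have : (0 : ℝ) < V x := by exact_mod_cast V_pos hx
  rw [one_mul, div_self this.ne']

lemma good_mul {g h : ℝ} (hh : 0 < h) (h1 : Good g) (h2 : Good h) : Good (g * h) := by
  have h3 : Tendsto (fun x : ℝ => h * x) atTop atTop := tendsto_id.const_mul_atTop hh
  have h4 := (h1.comp h3).mul h2
  apply h4.congr'
  filter_upwards [eventually_ge_atTop (1 / h)] with x hx
  have : (0 : ℝ) < V (h * x) := by
    apply Nat.cast_pos.mpr
    apply V_pos
    rw [div_le_iff₀ hh] at hx
    linarith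
  simp only [Function.comp]
  rw [mul_assoc]
  field_simp

lemma good_inv {g : ℝ} (hg : 0 < g) (h1 : Good g) : Good g⁻¹ := by
  have h3 : Tendsto (fun x : ℝ => g⁻¹ * x) atTop atTop := tendsto_id.const_mul_atTop (inv_pos.mpr hg)
  have h4 := (h1.comp h3).inv₀ hg.ne'
  apply h4.congr'
  filter_upwards with x
  simp only [Function.comp]
  rw [inv_div, ← mul_assoc, mul_inv_cancel₀ hg.ne', one_mul]

/-- logarithms of good numbers -/
def logGood : AddSubgroup ℝ where
  carrier := {t | Good (Real.exp t)}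
  zero_mem' := by
    show Good (Real.exp 0)
    rw [Real.exp_zero]; exact good_one
  add_mem' := by
    intro s t hs ht
    show Good (Real.exp (s + t))
    rw [Real.exp_add]; exact good_mul (Real.exp_pos t) hs ht
  neg_mem' := by
    intro t ht
    show Good (Real.exp (-t))
    rw [Real.exp_neg]; exact good_inv (Real.exp_pos t) ht

theorem all_good {a b : ℝ} (ha : 0 < a) (hb : 0 < b) (hirr : Irrational (Real.log a / Real.log b))
    (h1 : Good a) (h2 : Good b) {c : ℝ} (hc : 0 < c) : Good c := by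
  have hd : Dense ((AddSubgroup.closure {Real.log a, Real.log b} : AddSubgroup ℝ) : Set ℝ) :=
    dense_addSubgroupClosure_pair_iff.mpr hirr
  have hle : AddSubgroup.closure {Real.log a, Real.log b} ≤ logGood := by
    rw [AddSubgroup.closure_le]
    rintro t (rfl | rfl)
    · show Good (Real.exp _); rwa [Real.exp_log ha]
    · show Good (Real.exp _); rwa [Real.exp_log hb]
  have hd2 : Dense ((logGood : AddSubgroup ℝ) : Set ℝ) := hd.mono hle
  unfold Good
  rw [tendsto_order]
  constructor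
  · intro u hu
    obtain ⟨u', hu1, hu2⟩ := exists_between (max_lt hu hc)
    have hu0 : 0 < u' := (le_max_right u 0).trans_lt hu1
    obtain ⟨t, ht, ht1, ht2⟩ := hd2.exists_between (Real.log_lt_log hu0 hu2)
    have hg : Good (Real.exp t) := ht
    have e1 : u < Real.exp t := by
      have h5 : u' < Real.exp t := by rwa [← Real.log_lt_iff_lt_exp hu0]
      exact ((le_max_left u 0).trans_lt hu1).trans h5
    have e2 : Real.exp t < c := by rwa [← Real.lt_log_iff_exp_lt hc]
    filter_upwards [hg.eventually_const_lt e1, eventually_ge_atTop 1] with x hx hx1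
    refine hx.trans_le ?_
    have h6 : (V (Real.exp t * x) : ℝ) ≤ V (c * x) := by
      exact_mod_cast V_mono (by nlinarith)
    exact div_le_div_of_nonneg_right h6 (Nat.cast_nonneg _)
  · intro u hu
    obtain ⟨t, ht, ht1, ht2⟩ := hd2.exists_between (Real.log_lt_log hc hu)
    have hg : Good (Real.exp t) := ht
    have e1 : Real.exp t < u := by rwa [← Real.lt_log_iff_exp_lt (hc.trans hu)]
    have e2 : c < Real.exp t := by rwa [← Real.log_lt_iff_lt_exp hc]
    filter_upwards [hg.eventually_lt_const e1, eventually_ge_atTop 1] with x hx hx1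
    refine lt_of_le_of_lt ?_ hx
    have h6 : (V (c * x) : ℝ) ≤ V (Real.exp t * x) := by
      exact_mod_cast V_mono (by nlinarith)
    exact div_le_div_of_nonneg_right h6 (Nat.cast_nonneg _)

lemma irr_aux {b : ℕ} (hb : 1 < b) (h : ∀ p q : ℕ, 0 < p → 2 ^ q ≠ b ^ p) :
    Irrational (Real.log 2 / Real.log b) := by
  rintro ⟨r, hr⟩
  have h2 : 0 < Real.log 2 := Real.log_pos (by norm_num)
  have hb' : 0 < Real.log b := Real.log_pos (by exact_mod_cast hb)
  have hr0 : (0 : ℝ) < r := by rw [hr]; positivity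
  have hr0' : 0 < r := by exact_mod_cast hr0
  have hnum : 0 < r.num := Rat.num_pos.mpr hr0'
  obtain ⟨p, hp⟩ := Int.eq_ofNat_of_zero_le hnum.le
  have hp0 : 0 < p := by omega
  have h3 : (r : ℝ) = p / r.den := by
    rw [Rat.cast_def, hp]; simp
  rw [h3] at hr
  have hden : (0 : ℝ) < r.den := by exact_mod_cast r.den_pos
  have h4 : (r.den : ℝ) * Real.log 2 = p * Real.log b := by
    field_simp at hr
    linarith
  apply h p r.den hp0
  have h5 : Real.log ((2 : ℝ) ^ r.den) = Real.log ((b : ℝ) ^ p) := by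
    rw [Real.log_pow, Real.log_pow, h4]
  have h6 : (2 : ℝ) ^ r.den = (b : ℝ) ^ p :=
    Real.log_injOn_pos (by simp) (by simp; positivity) h5
  exact_mod_cast h6

lemma irr3 : Irrational (Real.log 2 / Real.log 3) := by
  have := irr_aux (b := 3) (by norm_num) (by
    intro p q hp h
    rcases Nat.eq_zero_or_pos q with rfl | hq
    · have : 1 < 3 ^ p := Nat.one_lt_pow hp.ne' (by norm_num)
      omega
    · have h1 : 2 ∣ 3 ^ p := h ▸ dvd_pow_self 2 hq.ne'
      have := Nat.Prime.dvd_of_dvd_pow Nat.prime_two h1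
      omega)
  simpa using this

lemma irr6 : Irrational (Real.log 2 / Real.log 6) := by
  have := irr_aux (b := 6) (by norm_num) (by
    intro p q hp h
    have h1 : 3 ∣ 2 ^ q := h ▸ (show 3 ∣ 6 by norm_num).trans (dvd_pow_self 6 hp.ne')
    have := Nat.Prime.dvd_of_dvd_pow Nat.prime_three h1
    omega)
  simpa using this

end Vale.Agent.H23.Tot
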